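import Vale.Agent.P121.Bdl.B1

open MeasureTheory Set
open scoped ENNReal NNReal

namespace Vale.Agent.Results.P121.Disproof

/-- There is an absolutely continuous probability measure on three-space, with bounded density and
compact support and with finite Kantorovich value, which has no optimal Monge plan for the
three-marginal Coulomb cost. -/
theorem result :
    ∃ μ : Measure (EuclideanSpace ℝ (Fin 3)),
      IsProbabilityMeasure μ ∧ μ ≪ volume ∧
      (∃ C : ℝ≥0, μ ≤ C • volume) ∧
      (∃ S : Set (EuclideanSpace ℝ (Fin 3)), IsCompact S ∧ μ Sᶜ = 0) ∧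
      Vale.Agent.P121.kantorovich μ < ∞ ∧
      ¬ Vale.Agent.P121.HasOptimalMongePlan μ := by
  obtain ⟨μ, h1, h2, ⟨C, h3⟩, h4, h5⟩ :=
    Vale.Agent.P121.main_construction (E := EuclideanSpace ℝ (Fin 3))
      (EuclideanSpace.single (0 : Fin 3) (1 : ℝ)) (EuclideanSpace.single (1 : Fin 3) (1 : ℝ)) (by simp) (by simp)
      (by rw [EuclideanSpace.inner_single_left]; simp)
  refine ⟨μ, h1, ?_, ⟨C, h3⟩, h2, h4.lt_top, ?_⟩
  · exact (Measure.absolutelyContinuous_of_le h3).trans
      (Measure.smul_absolutelyContinuous)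
  · rintro ⟨T₂, T₃, hT, hcost⟩
    exact h5 T₂ T₃ hT hcost

end Vale.Agent.Results.P121.Disproof
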